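import Vale.Agent.P011.D4I.Defs
import Vale.Agent.P011.D4T.H862.Good

/-!
Block D4I: existence of good parameters.
-/

open NumberField IsDedekindDomain

namespace Vale.Agent.P011.D4I

open Vale.Agent.P011.Arith Vale.Agent.P011.MPQ Vale.Agent.P011.D4 Vale.Agent.P011.D4T
  Vale.Agent.P011.Two

section good

variable {k L : Type} [Field k] [NumberField k] [Field L] [NumberField L] [Algebra k L]

/-- If `(a, b)` contains a square root of `D`, and is ramified at a prime of `L`, then `D` is not
a square at this prime. -/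
theorem notMem_of_ram {a b D : kˣ} {w : HeightOneSpectrum (𝓞 L)}
    (hx : ∃ x : Qt a b, x.re = 0 ∧ x * x = (D : k) • (1 : Qt a b))
    (hw : up L b ∉ NF (up L a) ⊔ LS (w.valuation L)) : up L D ∉ LS (w.valuation L) := by
  obtain ⟨x, hx0, hxx⟩ := hx
  intro hD
  apply hw
  refine mem_of_pure (δ := up L D) (p := algebraMap k L x.imI) (q := algebraMap k L x.imJ)
    (r := algebraMap k L x.imK) ?_ hD
  have h1 := congrArg QuaternionAlgebra.re hxx
  simp only [QuaternionAlgebra.re_mul, QuaternionAlgebra.re_smul, QuaternionAlgebra.re_one,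
    hx0, smul_eq_mul, mul_one, zero_mul, mul_zero, zero_add, add_zero] at h1
  change algebraMap k L D = algebraMap k L a * algebraMap k L x.imI ^ 2 +
    algebraMap k L b * algebraMap k L x.imJ ^ 2 -
      algebraMap k L a * algebraMap k L b * algebraMap k L x.imK ^ 2
  rw [← h1]
  simp only [map_add, map_sub, map_mul]
  ring

/-- Non-squares stay non-squares at the places which matter. -/
theorem notMem_upI {a b D : kˣ} {q : Lˣ} (hodd : HOdd a q)
    (hx : ∃ x : Qt a b, x.re = 0 ∧ x * x = (D : k) • (1 : Qt a b))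
    {w : HeightOneSpectrum (𝓞 L)} (hD : D ∉ LS ((w.under (𝓞 k)).valuation k))
    (hw : Ram (up L a) q w ∨ Ram (up L a) (q * up L b) w) : up L D ∉ LS (w.valuation L) := by
  by_cases hq : Ram (up L a) q w
  · exact fun h => hD (hodd (w.under (𝓞 k)) w rfl hq D h)
  · have hw' := hw.resolve_left hq
    refine notMem_of_ram hx fun hb => hw' ?_
    have hq' : q ∈ NF (up L a) ⊔ LS (w.valuation L) := not_not.1 hq
    exact mul_mem hq' hb

/-- A good parameter which is unramified at the ramified places of `Q₁`, and whose product with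
the members of a given finite set is never a square. -/
theorem exists_DI (h3 : Module.finrank k L = 3) {a b : kˣ} {q : Lˣ} (hab : Aniso a b)
    (hodd : HOdd a q) (T : Finset kˣ) :
    ∃ (c : k) (D : kˣ), (D : k) = 1 + 4 * c ∧
      (∀ w : HeightOneSpectrum (𝓞 L), Ram (up L a) (q * up L b) w →
        AdmC (w.valuation L) (algebraMap k L c)) ∧
      (∃ w : Qt a b, w.re = 0 ∧ w * w = (D : k) • 1) ∧
      (∃ w : Qt (up L a) q, w.re = 0 ∧ w * w = algebraMap k L D • 1) ∧
      (∃ w : Qt (up L a) (q * up L b), w.re = 0 ∧ w * w = algebraMap k L D • 1) ∧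
      (∀ τ : k →+* ℝ, τ D < 0 ↔ τ a < 0) ∧ ∀ e ∈ T, ¬ IsSquare ((e : k) * D) := by
  classical
  obtain ⟨S, hS⟩ : ∃ S : Finset (HeightOneSpectrum (𝓞 k)),
      (∀ v : HeightOneSpectrum (𝓞 k), Ram a b v → v ∈ S) ∧
      ∀ w : HeightOneSpectrum (𝓞 L), (Ram (up L a) q w ∨ Ram (up L a) (q * up L b) w) →
        w.under (𝓞 k) ∈ S := by
    refine ⟨(ram_finite a b).toFinset ∪ ((ram_finite (up L a) q).toFinset ∪
      (ram_finite (up L a) (q * up L b)).toFinset).image (fun w => w.under (𝓞 k)),
      fun v hv => Finset.mem_union_left _ ((ram_finite a b).mem_toFinset.mpr hv),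
      fun w hw => Finset.mem_union_right _ (Finset.mem_image_of_mem _ ?_)⟩
    rcases hw with hw | hw
    · exact Finset.mem_union_left _ ((ram_finite _ _).mem_toFinset.mpr hw)
    · exact Finset.mem_union_right _ ((ram_finite _ _).mem_toFinset.mpr hw)
  choose cv hcv using fun v : HeightOneSpectrum (𝓞 k) => exists_admC v
  obtain ⟨v', hv'⟩ := exists_notMem (S ∪ T.biUnion fun e =>
    (finite_valuation_ne_one (F := k) (e : k) e.ne_zero).toFinset)
  rw [Finset.mem_union, not_or] at hv'
  have hT : ∀ e ∈ T, v'.valuation k (e : k) = 1 := fun e he => by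
    by_contra hcon
    refine hv'.2 (Finset.mem_biUnion.2 ⟨e, he, ?_⟩)
    rw [Set.Finite.mem_toFinset]
    exact hcon
  obtain ⟨π, hπ⟩ := v'.valuation_exists_uniformizer k
  obtain ⟨c, hc', hci⟩ := approxVal (F := k) (insert v' S)
    (fun v => if v = v' then (π - 1) / 4 else cv v)
    (fun v => if v = v' then WithZero.exp (-1) else 1)
    (fun v _ => by split_ifs; exacts [WithZero.exp_ne_zero, one_ne_zero])
    (fun W => if ∃ τ : k →+* ℝ, InfinitePlace.mk (Complex.ofRealHom.comp τ) = W ∧ τ a < 0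
      then -1 else 1) (ε := 1 / 2) (by norm_num)
  have hc : ∀ v ∈ S, v.valuation k (c - cv v) < 1 := fun v hv => by
    have h := hc' v (Finset.mem_insert_of_mem hv)
    have hne : v ≠ v' := by
      rintro rfl
      exact hv'.1 hv
    rwa [if_neg hne, if_neg hne] at h
  have hadm : ∀ v ∈ S, AdmC (v.valuation k) c := fun v hv => AdmC.congr (hcv v) (hc v hv)
  have hD1 : v'.valuation k (1 + 4 * c) = WithZero.exp (-1) := by
    have h := hc' v' (Finset.mem_insert_self _ _)
    rw [if_pos rfl, if_pos rfl] at h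
    have e : (1 + 4 * c : k) = π + 4 * (c - (π - 1) / 4) := by ring
    rw [e, Valuation.map_add_eq_of_lt_left, hπ]
    rw [hπ, map_mul]
    exact (mul_le_of_le_one_left' (val_four_le _)).trans_lt h
  have hre : ∀ τ : k →+* ℝ, (τ a < 0 → τ (1 + 4 * c) < 0) ∧ (¬ τ a < 0 → 0 < τ (1 + 4 * c)) := by
    intro τ
    have h1 := hci (InfinitePlace.mk (Complex.ofRealHom.comp τ))
    rw [abs_real] at h1
    have e : τ (1 + 4 * c) = 1 + 4 * τ c := by
      rw [map_add, map_mul, map_one, map_ofNat]
    constructor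
    · intro ha
      rw [if_pos ⟨τ, rfl, ha⟩, map_sub, map_neg, map_one, abs_lt] at h1
      rw [e]
      linarith [h1.2]
    · intro ha
      rw [if_neg, map_sub, map_one, abs_lt] at h1
      · rw [e]
        linarith [h1.1]
      · rintro ⟨τ', h2, h3⟩
        exact ha (by rwa [← real_place_injective h2])
  have hD0 : 1 + 4 * c ≠ 0 := by
    intro h0
    rw [h0, map_zero] at hD1
    exact WithZero.exp_ne_zero hD1.symm
  obtain ⟨D, hD⟩ : ∃ D : kˣ, (D : k) = 1 + 4 * c := ⟨Units.mk0 _ hD0, rfl⟩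
  have hadmS : ∀ v ∈ S, D ∉ LS (v.valuation k) := fun v hv => TG.adm_notMem (hadm v hv) hD
  have hreD : ∀ τ : k →+* ℝ, τ D < 0 ↔ τ a < 0 := fun τ => by
    rw [hD]
    refine ⟨fun h => ?_, (hre τ).1⟩
    by_contra hcon
    exact absurd h (not_lt.mpr ((hre τ).2 hcon).le)
  have hpure : ∃ w : Qt a b, w.re = 0 ∧ w * w = (D : k) • (1 : Qt a b) :=
    exists_pure (not_isSquare_of_aniso hab) (fun v hv => hadmS v (hS.1 v hv))
      fun ψ hψ _ => (hreD ψ).2 hψ
  have hup : ∀ w : HeightOneSpectrum (𝓞 L), (Ram (up L a) q w ∨ Ram (up L a) (q * up L b) w) →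
      up L D ∉ LS (w.valuation L) := fun w hw =>
    notMem_upI hodd hpure (hadmS _ (hS.2 w hw)) hw
  have hL : ¬ IsSquare ((up L a : Lˣ) : L) := not_isSquare_of_aniso (aniso_up h3 hab)
  have hr : ∀ ψ : L →+* ℝ, ψ (up L a : Lˣ) < 0 → ψ (up L D : Lˣ) < 0 := fun ψ hψ =>
    (hreD (ψ.comp (algebraMap k L))).2 hψ
  refine ⟨c, D, hD, fun w hw => ?_, hpure,
    exists_pure hL (D := up L D) (fun w hw => hup w (Or.inl hw)) fun ψ hψ _ => hr ψ hψ,
    exists_pure hL (D := up L D) (fun w hw => hup w (Or.inr hw)) fun ψ hψ _ => hr ψ hψ, hreD,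
    fun e he => ?_⟩
  · have hv := hadm _ (hS.2 w (Or.inr hw))
    obtain ⟨e, he, hval⟩ := val_above (E := L) (w := w) (v := w.under (𝓞 k)) rfl
    refine TG.adm_of_notMem (a := up L D) ?_ ?_ ?_ (hup w (Or.inr hw))
    · change algebraMap k L D = _
      rw [hD, map_add, map_mul, map_one, map_ofNat]
    · rw [hval]
      exact pow_le_one' hv.1 e
    · have e1 : (1 : L) + 4 * algebraMap k L c = algebraMap k L (1 + 4 * c) := by
        rw [map_add, map_mul, map_one, map_ofNat]
      rw [e1, hval, TG.adm_unit hv, one_pow]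
  · refine odd_not_square (v := v') ?_
    rw [map_mul, hT e he, one_mul, hD, hD1]

end good

end Vale.Agent.P011.D4I
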